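import Vale.Agent.P132.N723.Basic
import Vale.Agent.P132.H8.Nf

/-!
# P132: transitivity of the unitary group on the faithful normal states, from pieces
-/

open Filter Topology
open scoped ComplexConjugate InnerProductSpace

namespace Vale.Agent.P132.N8

open Vale.Agent.P132.H8

universe u

variable {H : Type u} [NormedAddCommGroup H] [InnerProductSpace ℂ H] [CompleteSpace H]
variable {M : VonNeumannAlgebra H} {V W : EllTwo H}

theorem pi_norm_le {v : H →L[ℂ] H} (h : v * star v * v = v) : ‖v‖ ≤ 1 := by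
  have h1 : ‖star v * v‖ = ‖v‖ * ‖v‖ := CStarRing.norm_star_mul_self
  have h2 : (star v * v) * (star v * v) = star v * v := by
    rw [mul_assoc, ← mul_assoc v, h]
  have h3 : ‖star (star v * v) * (star v * v)‖ = ‖star v * v‖ * ‖star v * v‖ :=
    CStarRing.norm_star_mul_self
  rw [star_mul, star_star, h2] at h3
  have h4 := norm_nonneg v
  have h5 := norm_nonneg (star v * v)
  by_contra h6
  push Not at h6
  have h7 : 1 < ‖star v * v‖ := by rw [h1]; nlinarith
  nlinarith

/-- `‖v ψ - φ v‖ ≤ δ` for `φ = st V`, `ψ = st W` -/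
def IS (M : VonNeumannAlgebra H) (V W : EllTwo H) (v : H →L[ℂ] H) (δ : ℝ) : Prop :=
  ∀ y ∈ M, ‖st W (y * v) - st V (v * y)‖ ≤ δ * ‖y‖

theorem IS.adj {v : H →L[ℂ] H} {δ : ℝ} (h : IS M V W v δ) {y : H →L[ℂ] H} (hy : y ∈ M) :
    ‖st W (star v * y) - st V (y * star v)‖ ≤ δ * ‖y‖ := by
  have h1 := h (star y) (star_mem hy)
  rw [norm_star] at h1
  have h2 : st W (star v * y) - st V (y * star v) =
      conj (st W (star y * v) - st V (v * star y)) := by
    rw [map_sub, ← st_star, ← st_star, star_mul, star_mul, star_star]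
  rw [h2, RCLike.norm_conj]
  exact h1

theorem nmul_le {v : H →L[ℂ] H} (hv : ‖v‖ ≤ 1) (y : H →L[ℂ] H) : ‖y * v‖ ≤ ‖y‖ :=
  (norm_mul_le _ _).trans (by nlinarith [norm_nonneg y])

theorem nmul_le' {v : H →L[ℂ] H} (hv : ‖v‖ ≤ 1) (y : H →L[ℂ] H) : ‖v * y‖ ≤ ‖y‖ :=
  (norm_mul_le _ _).trans (by nlinarith [norm_nonneg y])

theorem IS.nonneg {v : H →L[ℂ] H} {δ : ℝ} (h : IS M V W v δ) (hV : ‖V‖ = 1) : 0 ≤ δ := by
  have h1 := h 1 (one_mem M)
  have h2 : 0 < ‖(1 : H →L[ℂ] H)‖ := by
    rw [norm_pos_iff]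
    intro h0
    have := st_one hV
    rw [h0, st_zero] at this
    exact zero_ne_one this
  by_contra h3
  push Not at h3
  have := norm_nonneg (st W (1 * v) - st V (v * 1))
  nlinarith

/-- the initial projection almost commutes with `st W` -/
theorem IS.comm_e {v : H →L[ℂ] H} {δ : ℝ} (h : IS M V W v δ) (hV : ‖V‖ = 1) (hv : v ∈ M)
    (hn : ‖v‖ ≤ 1) {z : H →L[ℂ] H} (hz : z ∈ M) :
    ‖st W (star v * v * z) - st W (z * (star v * v))‖ ≤ 2 * δ * ‖z‖ := by
  have hδ := h.nonneg hV
  have h1 := h (z * star v) (mul_mem hz (star_mem hv))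
  have h2 := h.adj (y := v * z) (mul_mem hv hz)
  have h3 : ‖z * star v‖ ≤ ‖z‖ := nmul_le (by rwa [norm_star]) z
  have h4 : ‖v * z‖ ≤ ‖z‖ := nmul_le' hn z
  have e : st W (star v * v * z) - st W (z * (star v * v)) =
      (st W (star v * (v * z)) - st V (v * z * star v)) -
        (st W (z * star v * v) - st V (v * (z * star v))) := by
    simp only [mul_assoc]
    ring
  rw [e]
  refine (norm_sub_le _ _).trans ?_
  nlinarith

/-- the final projection almost commutes with `st V` -/
theorem IS.comm_f {v : H →L[ℂ] H} {δ : ℝ} (h : IS M V W v δ) (hV : ‖V‖ = 1) (hv : v ∈ M)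
    (hn : ‖v‖ ≤ 1) {z : H →L[ℂ] H} (hz : z ∈ M) :
    ‖st V (v * star v * z) - st V (z * (v * star v))‖ ≤ 2 * δ * ‖z‖ := by
  have hδ := h.nonneg hV
  have h1 := h (star v * z) (mul_mem (star_mem hv) hz)
  have h2 := h.adj (y := z * v) (mul_mem hz hv)
  have h3 : ‖star v * z‖ ≤ ‖z‖ := nmul_le' (by rwa [norm_star]) z
  have h4 : ‖z * v‖ ≤ ‖z‖ := nmul_le hn z
  have e : st V (v * star v * z) - st V (z * (v * star v)) =
      (st W (star v * (z * v)) - st V (z * v * star v)) -
        (st W (star v * z * v) - st V (v * (star v * z))) := by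
    simp only [mul_assoc]
    ring
  rw [e]
  refine (norm_sub_le _ _).trans ?_
  nlinarith

theorem st_proj (V : EllTwo H) {e : H →L[ℂ] H} (hs : star e = e) (hi : e * e = e) :
    (st V e).re = ‖amp e V‖ ^ 2 := by
  rw [← st_self_re, hs, hi]

theorem st_proj' (V : EllTwo H) {e : H →L[ℂ] H} (hs : star e = e) (hi : e * e = e) :
    st V e = ((‖amp e V‖ ^ 2 : ℝ) : ℂ) := by
  rw [← st_self, hs, hi]

theorem one_ne (hV : Sep M V) : (1 : H →L[ℂ] H) ≠ 0 := by
  intro h0
  have := st_one hV.norm
  rw [h0, st_zero] at this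
  exact zero_ne_one this

theorem split (U : EllTwo H) {v1 v2 : H →L[ℂ] H} (hs : v1 * star v1 + v2 * star v2 = 1)
    (x : H →L[ℂ] H) :
    ‖amp (star x) U‖ ^ 2 = ‖amp (star (x * v1)) U‖ ^ 2 + ‖amp (star (x * v2)) U‖ ^ 2 := by
  have h : ∀ z : H →L[ℂ] H, ‖amp (star z) U‖ ^ 2 = (st U (z * star z)).re := by
    intro z
    have := st_self_re U (star z)
    rw [star_star] at this
    exact this.symm
  rw [h, h, h, ← Complex.add_re, ← st_add]
  congr 2
  calc x * star x = x * (v1 * star v1 + v2 * star v2) * star x := by rw [hs, mul_one]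
    _ = _ := by simp only [mul_add, add_mul, star_mul, mul_assoc]

/-- small nonzero subprojections of the initial projection -/
theorem exists_small (hM : IsTypeIIIOneFactor M) (hV : Sep M V) (hW : Sep M W)
    {v : H →L[ℂ] H} (hv : v ∈ M) (hp : v * star v * v = v) (h0 : v ≠ 0) {η : ℝ} (hη : 0 < η) :
    ∃ g ∈ M, star g = g ∧ g * g = g ∧ g ≠ 0 ∧ star v * v * g = g ∧ ‖amp g W‖ ^ 2 ≤ η ∧
      ‖amp (g * star v) V‖ ^ 2 ≤ η := by
  have he : star v * v ∈ M := mul_mem (star_mem hv) hv
  have hes : star (star v * v) = star v * v := by rw [star_mul, star_star]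
  have hei : (star v * v) * (star v * v) = star v * v := by
    rw [mul_assoc, ← mul_assoc v, hp]
  have he0 : star v * v ≠ 0 := by
    intro h
    apply h0
    rw [← hp, mul_assoc, h, mul_zero]
  obtain ⟨p, hpM, hp1, hp2⟩ := all_equiv hM (isNormal_st hV.norm) hV.faithful he hes hei he0
  obtain ⟨v1, hv1, v2, hv2, h11, h22, hs, -, -⟩ :=
    exists_isometries hM (isNormal_st hV.norm) hV.faithful
  have hpow : ∀ n : ℕ, v1 ^ n ∈ M ∧ star (v1 ^ n) * v1 ^ n = 1 := by
    intro n
    induction n with
    | zero => exact ⟨by rw [pow_zero]; exact one_mem M, by rw [pow_zero, star_one, mul_one]⟩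
    | succ n ih =>
      refine ⟨by rw [pow_succ]; exact mul_mem ih.1 hv1, ?_⟩
      rw [pow_succ, star_mul, mul_assoc, ← mul_assoc (star (v1 ^ n)), ih.2, one_mul, h11]
  obtain ⟨n, hn⟩ : ∃ n : ℕ, ‖amp (star (p * v1 ^ n * v2)) W‖ ^ 2 +
      ‖amp (star (v * p * v1 ^ n * v2)) V‖ ^ 2 ≤ η := by
    by_contra hcon
    push Not at hcon
    have hb : ∀ n : ℕ, ‖amp (star (p * v1 ^ n)) W‖ ^ 2 + ‖amp (star (v * p * v1 ^ n)) V‖ ^ 2 ≤
        2 - n * η := by
      intro n
      induction n with
      | zero =>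
        have hn1 : ‖amp (star (p * v1 ^ 0)) W‖ ≤ 1 := by
          refine (norm_amp_apply_le hW.norm _).trans ?_
          rw [norm_star, pow_zero, mul_one]
          exact isometry_norm_le hp1
        have hn2 : ‖amp (star (v * p * v1 ^ 0)) V‖ ≤ 1 := by
          refine (norm_amp_apply_le hV.norm _).trans ?_
          rw [norm_star, pow_zero, mul_one]
          exact (nmul_le (isometry_norm_le hp1) v).trans (pi_norm_le hp)
        have h1 := norm_nonneg (amp (star (p * v1 ^ 0)) W)
        have h2 := norm_nonneg (amp (star (v * p * v1 ^ 0)) V)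
        push_cast
        nlinarith
      | succ n ih =>
        have h1 := hcon n
        have h2 := split W hs (p * v1 ^ n)
        have h3 := split V hs (v * p * v1 ^ n)
        have e1 : p * v1 ^ (n + 1) = p * v1 ^ n * v1 := by rw [pow_succ, ← mul_assoc]
        have e2 : v * p * v1 ^ (n + 1) = v * p * v1 ^ n * v1 := by rw [pow_succ, ← mul_assoc]
        rw [e1, e2]
        push_cast
        linarith
    obtain ⟨N, hN⟩ := exists_nat_gt (2 / η)
    have h1 := hb N
    rw [div_lt_iff₀ hη] at hN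
    have h2 : 0 ≤ ‖amp (star (p * v1 ^ N)) W‖ ^ 2 := by positivity
    have h3 : 0 ≤ ‖amp (star (v * p * v1 ^ N)) V‖ ^ 2 := by positivity
    linarith
  obtain ⟨q, hq⟩ : ∃ q : H →L[ℂ] H, q = p * v1 ^ n * v2 := ⟨_, rfl⟩
  have hqM : q ∈ M := by rw [hq]; exact mul_mem (mul_mem hpM (hpow n).1) hv2
  rw [← hq] at hn
  have hqq : star q * q = 1 := by
    rw [hq, star_mul, star_mul]
    calc star v2 * (star (v1 ^ n) * star p) * (p * v1 ^ n * v2)
        = star v2 * (star (v1 ^ n) * (star p * p) * v1 ^ n) * v2 := by simp only [mul_assoc]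
      _ = 1 := by rw [hp1, mul_one, (hpow n).2, mul_one, h22]
  have heq : star v * v * q = q := by
    rw [← hp2, hq]
    calc p * star p * (p * v1 ^ n * v2) = p * (star p * p) * v1 ^ n * v2 := by
          simp only [mul_assoc]
      _ = _ := by rw [hp1, mul_one]
  have hgs : star (q * star q) = q * star q := by rw [star_mul, star_star]
  have hgg : (q * star q) * (q * star q) = q * star q := by
    rw [mul_assoc, ← mul_assoc (star q), hqq, one_mul]
  refine ⟨q * star q, mul_mem hqM (star_mem hqM), hgs, hgg, ?_, ?_, ?_, ?_⟩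
  · intro h
    have h1 : q = 0 := by
      have : q = q * star q * q := by rw [mul_assoc, hqq, mul_one]
      rw [this, h, zero_mul]
    rw [h1, mul_zero] at hqq
    exact one_ne hV hqq.symm
  · rw [← mul_assoc, heq]
  · have h1 := st_proj W hgs hgg
    have h2 := st_self_re W (star q)
    rw [star_star] at h2
    have h3 : 0 ≤ ‖amp (star (v * p * v1 ^ n * v2)) V‖ ^ 2 := by positivity
    rw [← h1, h2]
    linarith
  · have h1 := st_self_re V (q * star q * star v)
    have h2 := st_self_re V (star (v * q))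
    have h3 : star (q * star q * star v) * (q * star q * star v) =
        star (star (v * q)) * star (v * q) := by
      rw [star_star, star_mul v q, star_mul (q * star q) (star v), star_star, hgs]
      calc v * (q * star q) * (q * star q * star v)
          = v * ((q * star q) * (q * star q)) * star v := by simp only [mul_assoc]
        _ = _ := by rw [hgg]; simp only [mul_assoc]
    have h4 : 0 ≤ ‖amp (star q) W‖ ^ 2 := by positivity
    have h5 : v * q = v * p * v1 ^ n * v2 := by rw [hq]; simp only [mul_assoc]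
    rw [← h1, h3, h2, h5]
    linarith

/-- a piece can be made smaller, so that both remainders are not zero -/
theorem trim (hM : IsTypeIIIOneFactor M) (hV : Sep M V) (hW : Sep M W)
    {v : H →L[ℂ] H} (hv : v ∈ M) (hp : v * star v * v = v) (h0 : v ≠ 0) {δ η : ℝ} (hη : 0 < η)
    (hI : IS M V W v δ) :
    ∃ w ∈ M, w * star w * w = w ∧ 1 - star w * w ≠ 0 ∧ 1 - w * star w ≠ 0 ∧
      ‖amp v W‖ ^ 2 - η ^ 2 ≤ ‖amp w W‖ ^ 2 ∧
      ‖amp (star v) V‖ ^ 2 - η ^ 2 ≤ ‖amp (star w) V‖ ^ 2 ∧ IS M V W w (δ + 2 * η) := by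
  obtain ⟨g, hg, hgs, hgg, hg0, heg, hgW, hgV⟩ :=
    exists_small hM hV hW hv hp h0 (show (0 : ℝ) < η ^ 2 by positivity)
  have hge : g * (star v * v) = g := by
    have := congrArg star heg
    rwa [star_mul, star_mul, star_star, hgs] at this
  have hve : v * (star v * v) = v := by rw [← mul_assoc, hp]
  have hee : (star v * v) * (star v * v) = star v * v := by
    rw [mul_assoc, hve]
  have hsw : star (v - v * g) = star v - g * star v := by
    rw [star_sub, star_mul, hgs]
  have hww : star (v - v * g) * (v - v * g) = star v * v - g := by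
    rw [hsw]
    have h1 : star v * (v * g) = g := by rw [← mul_assoc, heg]
    have h2 : g * star v * v = g := by rw [mul_assoc, hge]
    have h3 : g * star v * (v * g) = g := by rw [mul_assoc, h1, hgg]
    rw [sub_mul, mul_sub, mul_sub, h1, h2, h3]
    abel
  have hww' : (v - v * g) * star (v - v * g) = v * star v - v * g * star v := by
    rw [hsw]
    have h1 : v * (g * star v) = v * g * star v := by rw [mul_assoc]
    have h3 : v * g * (g * star v) = v * g * star v := by
      rw [← mul_assoc, mul_assoc v g g, hgg]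
    rw [sub_mul, mul_sub, mul_sub, h1, h3]
    abel
  have hvn := pi_norm_le hp
  refine ⟨v - v * g, sub_mem hv (mul_mem hv hg), ?_, ?_, ?_, ?_, ?_, ?_⟩
  · rw [mul_assoc, hww, sub_mul, mul_sub, mul_sub, hve, mul_assoc v g, hge, mul_assoc v g, hgg]
    abel
  · rw [hww]
    intro h
    have h1 : (1 - (star v * v - g)) * g = 0 := by rw [h, zero_mul]
    rw [sub_mul, sub_mul, one_mul, heg, hgg, sub_self, sub_zero] at h1
    exact hg0 h1
  · rw [hww']
    intro h
    have h1 : star v * ((1 - (v * star v - v * g * star v)) * v * g) = 0 := by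
      rw [h, zero_mul, zero_mul, mul_zero]
    have h2 : (1 - (v * star v - v * g * star v)) * v * g = v * g := by
      rw [sub_mul, sub_mul, one_mul, sub_mul, sub_mul, hp, mul_assoc (v * g), mul_assoc (v * g),
        heg, mul_assoc v g, hgg, sub_self, sub_zero]
    rw [h2, ← mul_assoc, heg] at h1
    exact hg0 h1
  · have h1 := st_self_re W (v - v * g)
    have h2 := st_self_re W v
    have h3 := st_proj W hgs hgg
    rw [hww, st_sub, Complex.sub_re, h2, h3] at h1
    linarith
  · have h1 := st_self_re V (star (v - v * g))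
    have h2 := st_self_re V (star v)
    have h3 := st_self_re V (g * star v)
    have h4 : star (g * star v) * (g * star v) = v * g * star v := by
      rw [star_mul, star_star, hgs, mul_assoc, ← mul_assoc g, hgg, mul_assoc]
    rw [h4] at h3
    rw [star_star] at h1 h2
    rw [hww', st_sub, Complex.sub_re, h2, h3] at h1
    linarith
  · intro y hy
    have e : st W (y * (v - v * g)) - st V ((v - v * g) * y) =
        (st W (y * v) - st V (v * y)) - (st W (y * v * g) - st V (v * g * y)) := by
      rw [mul_sub, sub_mul, st_sub, st_sub, mul_assoc y v g]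
      ring
    have hW' : ‖amp g W‖ ≤ η := by
      exact (pow_le_pow_iff_left₀ (norm_nonneg _) hη.le two_ne_zero).1 hgW
    have hV' : ‖amp (g * star v) V‖ ≤ η := by
      exact (pow_le_pow_iff_left₀ (norm_nonneg _) hη.le two_ne_zero).1 hgV
    have h1 : ‖st W (y * v * g)‖ ≤ η * ‖y‖ := by
      refine (norm_st_mul_le W (y * v) g).trans ?_
      have h2 : ‖amp (star (y * v)) W‖ ≤ ‖y‖ := by
        refine (norm_amp_apply_le hW.norm _).trans ?_
        rw [norm_star]
        exact nmul_le hvn y
      have := norm_nonneg (amp g W)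
      have := norm_nonneg (amp (star (y * v)) W)
      nlinarith [norm_nonneg y]
    have h2 : ‖st V (v * g * y)‖ ≤ η * ‖y‖ := by
      refine (norm_st_mul_le V (v * g) y).trans ?_
      have h3 : star (v * g) = g * star v := by rw [star_mul, hgs]
      rw [h3]
      have h4 : ‖amp y V‖ ≤ ‖y‖ := norm_amp_apply_le hV.norm _
      have := norm_nonneg (amp (g * star v) V)
      have := norm_nonneg (amp y V)
      nlinarith [norm_nonneg y]
    have h3 := hI y hy
    rw [e]
    calc _ ≤ ‖st W (y * v) - st V (v * y)‖ + ‖st W (y * v * g) - st V (v * g * y)‖ :=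
          norm_sub_le _ _
      _ ≤ δ * ‖y‖ + (η * ‖y‖ + η * ‖y‖) :=
          add_le_add h3 ((norm_sub_le _ _).trans (add_le_add h1 h2))
      _ = _ := by ring

/-- the corner of a state -/
theorem corner (hV : Sep M V) {a s : H →L[ℂ] H} (ha : a ∈ M) (h1 : star a * a = 1)
    (h2 : a * star a = s) :
    ∃ V', Sep M V' ∧ 0 < ‖amp s V‖ ∧
      ∀ x, st V (a * x * star a) = ((‖amp s V‖ ^ 2 : ℝ) : ℂ) * st V' x := by
  have hss : star s = s := by rw [← h2, star_mul, star_star]
  have hsi : s * s = s := by rw [← h2, mul_assoc, ← mul_assoc (star a), h1, one_mul]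
  have hn : ‖amp (star a) V‖ = ‖amp s V‖ := by
    have h3 := st_self_re V (star a)
    rw [star_star, h2, st_proj V hss hsi] at h3
    exact ((pow_left_inj₀ (norm_nonneg _) (norm_nonneg _) two_ne_zero).1 h3).symm
  have hpos : 0 < ‖amp s V‖ := by
    rw [norm_pos_iff]
    intro h
    have h3 := hV.sep s (by rw [← h2]; exact mul_mem ha (star_mem ha)) h
    have h4 : a = 0 := by
      have : a = a * star a * a := by rw [mul_assoc, h1, mul_one]
      rw [this, h2, h3, zero_mul]
    rw [h4, mul_zero] at h1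
    exact one_ne hV h1.symm
  set m : ℝ := ‖amp s V‖ with hm
  have hmC : (m : ℂ) ≠ 0 := by exact_mod_cast hpos.ne'
  refine ⟨((m⁻¹ : ℝ) : ℂ) • amp (star a) V, ⟨?_, ?_⟩, hpos, ?_⟩
  · rw [norm_smul, Complex.norm_real, norm_inv, Real.norm_of_nonneg hpos.le, hn,
      inv_mul_cancel₀ hpos.ne']
  · intro x hx h0
    rw [map_smul] at h0
    have h3 : amp x (amp (star a) V) = 0 := by
      rcases smul_eq_zero.1 h0 with h4 | h4
      · exfalso
        have : (m⁻¹ : ℝ) = 0 := by exact_mod_cast h4
        exact hpos.ne' (inv_eq_zero.1 this)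
      · exact h4
    have h4 := hV.sep (x * star a) (mul_mem hx (star_mem ha)) h3
    have : x = x * star a * a := by rw [mul_assoc, h1, mul_one]
    rw [this, h4, zero_mul]
  · intro x
    have e1 : st V (a * x * star a) = ⟪amp (star a) V, amp x (amp (star a) V)⟫_ℂ := by
      have h3 := st_inner V (star a) (x * star a)
      rw [star_star, ← mul_assoc] at h3
      rw [h3]
      rfl
    unfold st at e1 ⊢
    rw [e1, map_smul, inner_smul_left, inner_smul_right, Complex.conj_ofReal]
    push_cast
    field_simp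

theorem add_pi {v w : H →L[ℂ] H} (h1 : star v * w = 0) (h2 : v * star w = 0) :
    star (v + w) * (v + w) = star v * v + star w * w ∧
      (v + w) * star (v + w) = v * star v + w * star w := by
  have h3 : star w * v = 0 := by
    have := congrArg star h1
    rwa [star_mul, star_star, star_zero] at this
  have h4 : w * star v = 0 := by
    have := congrArg star h2
    rwa [star_mul, star_star, star_zero] at this
  constructor
  · rw [star_add, add_mul, mul_add, mul_add, h1, h3, add_zero, zero_add]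
  · rw [star_add, add_mul, mul_add, mul_add, h2, h4, add_zero, zero_add]

/-- pieces with mass at least `c` and nonzero remainders -/
def Pt (M : VonNeumannAlgebra H) (c : ℝ) : Prop :=
  ∀ V W : EllTwo H, Sep M V → Sep M W → ∀ δ : ℝ, 0 < δ → ∃ v ∈ M, v * star v * v = v ∧
    1 - star v * v ≠ 0 ∧ 1 - v * star v ≠ 0 ∧
    c ≤ ‖amp (star v) V‖ ^ 2 ∧ c ≤ ‖amp v W‖ ^ 2 ∧ IS M V W v δ

theorem step (hM : IsTypeIIIOneFactor M) (hV : Sep M V) (hW : Sep M W) {c : ℝ}
    (hP : Pt M c) {v : H →L[ℂ] H} (hv : v ∈ M) (hp : v * star v * v = v)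
    (hr0 : 1 - star v * v ≠ 0) (hs0 : 1 - v * star v ≠ 0) {ε δ : ℝ} (hδ : 0 < δ)
    (hI : IS M V W v ε) :
    ∃ w ∈ M, w * star w * w = w ∧ 1 - star w * w ≠ 0 ∧ 1 - w * star w ≠ 0 ∧
      (st W (1 - star w * w)).re ≤ (1 - c) * (st W (1 - star v * v)).re ∧
      (st V (1 - w * star w)).re ≤ (1 - c) * (st V (1 - v * star v)).re ∧
      IS M V W w (6 * ε + δ) := by
  have hε := hI.nonneg hV.norm
  have hvn := pi_norm_le hp
  obtain ⟨r, hr⟩ : ∃ r : H →L[ℂ] H, r = 1 - star v * v := ⟨_, rfl⟩
  obtain ⟨s, hs⟩ : ∃ s : H →L[ℂ] H, s = 1 - v * star v := ⟨_, rfl⟩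
  have hve : v * (star v * v) = v := by rw [← mul_assoc, hp]
  have hvs : star v * (v * star v) = star v := by
    have := congrArg star hve
    rwa [star_mul, star_mul, star_star, mul_assoc] at this
  have hrM : r ∈ M := by rw [hr]; exact sub_mem (one_mem M) (mul_mem (star_mem hv) hv)
  have hsM : s ∈ M := by rw [hs]; exact sub_mem (one_mem M) (mul_mem hv (star_mem hv))
  have hrs : star r = r := by rw [hr, star_sub, star_one, star_mul, star_star]
  have hss : star s = s := by rw [hs, star_sub, star_one, star_mul, star_star]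
  have hvr : v * r = 0 := by rw [hr, mul_sub, mul_one, hve, sub_self]
  have hsv : star v * s = 0 := by rw [hs, mul_sub, mul_one, hvs, sub_self]
  have hrr : r * r = r := by
    have e : r * r = (1 - star v * v) * r := by rw [← hr]
    rw [e, sub_mul, one_mul, mul_assoc, hvr, mul_zero, sub_zero]
  have hsi : s * s = s := by
    have e : s * s = (1 - v * star v) * s := by rw [← hs]
    rw [e, sub_mul, one_mul, mul_assoc, hsv, mul_zero, sub_zero]
  rw [← hr] at hr0
  rw [← hs] at hs0
  obtain ⟨a, ha, ha1, ha2⟩ := all_equiv hM (isNormal_st hV.norm) hV.faithful hsM hss hsi hs0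
  obtain ⟨b, hb, hb1, hb2⟩ := all_equiv hM (isNormal_st hV.norm) hV.faithful hrM hrs hrr hr0
  obtain ⟨V', hV', hm, hstV⟩ := corner hV ha ha1 ha2
  obtain ⟨W', hW', hn, hstW⟩ := corner hW hb hb1 hb2
  obtain ⟨w', hw', hp', hr', hs', hmV, hmW, hI'⟩ := hP V' W' hV' hW' δ hδ
  have hw'n := pi_norm_le hp'
  have hsa : s * a = a := by rw [← ha2, mul_assoc, ha1, mul_one]
  have hrb : r * b = b := by rw [← hb2, mul_assoc, hb1, mul_one]
  have hva : star v * a = 0 := by rw [← hsa, ← mul_assoc, hsv, zero_mul]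
  have hvb : v * b = 0 := by rw [← hrb, ← mul_assoc, hvr, zero_mul]
  obtain ⟨w, hw⟩ : ∃ w : H →L[ℂ] H, w = a * w' * star b := ⟨_, rfl⟩
  have hwM : w ∈ M := by rw [hw]; exact mul_mem (mul_mem ha hw') (star_mem hb)
  have hws : star w = b * star w' * star a := by
    rw [hw, star_mul, star_mul, star_star, mul_assoc]
  have hvw : star v * w = 0 := by rw [hw, ← mul_assoc, ← mul_assoc, hva, zero_mul, zero_mul]
  have hvw' : v * star w = 0 := by rw [hws, ← mul_assoc, ← mul_assoc, hvb, zero_mul, zero_mul]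
  have hwv : star w * v = 0 := by
    have := congrArg star hvw
    rwa [star_mul, star_star, star_zero] at this
  have hwv' : w * star v = 0 := by
    have := congrArg star hvw'
    rwa [star_mul, star_star, star_zero] at this
  have hww : star w * w = b * (star w' * w') * star b := by
    rw [hws, hw]
    calc b * star w' * star a * (a * w' * star b)
        = b * star w' * (star a * a) * w' * star b := by simp only [mul_assoc]
      _ = _ := by rw [ha1, mul_one]; simp only [mul_assoc]
  have hww' : w * star w = a * (w' * star w') * star a := by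
    rw [hws, hw]
    calc a * w' * star b * (b * star w' * star a)
        = a * w' * (star b * b) * star w' * star a := by simp only [mul_assoc]
      _ = _ := by rw [hb1, mul_one]; simp only [mul_assoc]
  have hwww : w * star w * w = w := by
    rw [hww', hw]
    calc a * (w' * star w') * star a * (a * w' * star b)
        = a * (w' * star w') * (star a * a) * w' * star b := by simp only [mul_assoc]
      _ = a * (w' * star w' * w') * star b := by rw [ha1, mul_one]; simp only [mul_assoc]
      _ = _ := by rw [hp']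
  obtain ⟨q1, q2⟩ := add_pi hvw hvw'
  have hR : 1 - star (v + w) * (v + w) = b * (1 - star w' * w') * star b := by
    rw [q1, hww, ← sub_sub, ← hr, mul_sub, sub_mul, mul_one, hb2]
  have hS : 1 - (v + w) * star (v + w) = a * (1 - w' * star w') * star a := by
    rw [q2, hww', ← sub_sub, ← hs, mul_sub, sub_mul, mul_one, ha2]
  refine ⟨v + w, add_mem hv hwM, ?_, ?_, ?_, ?_, ?_, ?_⟩
  · rw [q2, add_mul, mul_add, mul_add, hp, mul_assoc v, hvw, mul_zero, mul_assoc w, hwv,
      mul_zero, hwww, add_zero, zero_add]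
  · rw [hR]
    intro h
    apply hr'
    calc (1 : H →L[ℂ] H) - star w' * w'
        = star b * b * (1 - star w' * w') * (star b * b) := by rw [hb1, one_mul, mul_one]
      _ = star b * (b * (1 - star w' * w') * star b) * b := by simp only [mul_assoc]
      _ = 0 := by rw [h, mul_zero, zero_mul]
  · rw [hS]
    intro h
    apply hs'
    calc (1 : H →L[ℂ] H) - w' * star w'
        = star a * a * (1 - w' * star w') * (star a * a) := by rw [ha1, one_mul, mul_one]
      _ = star a * (a * (1 - w' * star w') * star a) * a := by simp only [mul_assoc]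
      _ = 0 := by rw [h, mul_zero, zero_mul]
  · rw [hR, hstW, ← hr, st_proj W hrs hrr, Complex.re_ofReal_mul, st_sub, st_one hW'.norm,
      Complex.sub_re, Complex.one_re, st_self_re]
    have : 0 ≤ ‖amp r W‖ ^ 2 := by positivity
    nlinarith
  · have h1 := st_self_re V' (star w')
    rw [star_star] at h1
    rw [hS, hstV, ← hs, st_proj V hss hsi, Complex.re_ofReal_mul, st_sub, st_one hV'.norm,
      Complex.sub_re, Complex.one_re, h1]
    have : 0 ≤ ‖amp s V‖ ^ 2 := by positivity
    nlinarith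
  · intro y hy
    have hwn := pi_norm_le hwww
    have han := isometry_norm_le ha1
    have hbn := isometry_norm_le hb1
    have hz : star b * y * a ∈ M := mul_mem (mul_mem (star_mem hb) hy) ha
    have hzn : ‖star b * y * a‖ ≤ ‖y‖ :=
      (nmul_le han _).trans (nmul_le' (by rwa [norm_star]) _)
    have h1 := hI' _ hz
    have e1 := hstW (star b * y * a * w')
    have e2 := hstV (w' * (star b * y * a))
    have e3 : b * (star b * y * a * w') * star b = r * y * w := by
      rw [← hb2, hw]; simp only [mul_assoc]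
    have e4 : a * (w' * (star b * y * a)) * star a = w * y * s := by
      rw [← ha2, hw]; simp only [mul_assoc]
    rw [e3] at e1
    rw [e4] at e2
    set A : ℂ := st W' (star b * y * a * w') with hA
    set B : ℂ := st V' (w' * (star b * y * a)) with hB
    have hBn : ‖B‖ ≤ ‖y‖ := (norm_st_le hV'.norm _).trans ((nmul_le' hw'n _).trans hzn)
    have hrW : (0 : ℝ) ≤ ‖amp r W‖ ^ 2 := by positivity
    have hrW1 : ‖amp r W‖ ^ 2 ≤ 1 := by
      have h2 : ‖amp r W‖ ≤ 1 :=
        (norm_amp_apply_le hW.norm _).trans (pi_norm_le (by rw [hrs, hrr, hrr]))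
      have := norm_nonneg (amp r W)
      nlinarith
    have hdiff : |‖amp r W‖ ^ 2 - ‖amp s V‖ ^ 2| ≤ ε := by
      have h2 := hI (star v) (star_mem hv)
      have h3 : st W (star v * v) - st V (v * star v) =
          -((‖amp r W‖ ^ 2 - ‖amp s V‖ ^ 2 : ℝ) : ℂ) := by
        rw [Complex.ofReal_sub, ← st_proj' W hrs hrr, ← st_proj' V hss hsi, hr, hs, st_sub,
          st_sub, st_one hW.norm, st_one hV.norm]
        ring
      rw [h3, norm_neg, Complex.norm_real, Real.norm_eq_abs, norm_star] at h2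
      have := norm_nonneg v
      nlinarith
    have hmain : ‖st W (r * y * w) - st V (w * y * s)‖ ≤ (δ + ε) * ‖y‖ := by
      have e5 : st W (r * y * w) - st V (w * y * s) =
          ((‖amp r W‖ ^ 2 : ℝ) : ℂ) * (A - B) + ((‖amp r W‖ ^ 2 - ‖amp s V‖ ^ 2 : ℝ) : ℂ) * B := by
        rw [e1, e2]
        push_cast
        ring
      rw [e5]
      refine (norm_add_le _ _).trans ?_
      rw [norm_mul, norm_mul, Complex.norm_real, Complex.norm_real, Real.norm_eq_abs,
        Real.norm_eq_abs, abs_of_nonneg hrW]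
      have h2 : ‖A - B‖ ≤ δ * ‖y‖ := h1.trans (mul_le_mul_of_nonneg_left hzn hδ.le)
      have h3 : ‖amp r W‖ ^ 2 * ‖A - B‖ ≤ 1 * (δ * ‖y‖) :=
        mul_le_mul hrW1 h2 (norm_nonneg _) zero_le_one
      have h4 : |‖amp r W‖ ^ 2 - ‖amp s V‖ ^ 2| * ‖B‖ ≤ ε * ‖y‖ :=
        mul_le_mul hdiff hBn (norm_nonneg _) hε
      linarith
    have h5 : ‖st W (y * w) - st W (r * y * w)‖ ≤ 2 * ε * ‖y‖ := by
      have h6 := hI.comm_e hV.norm hv hvn (mul_mem hy hwM)
      have h7 : y * w * (star v * v) = 0 := by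
        rw [mul_assoc, ← mul_assoc w, hwv', zero_mul, mul_zero]
      rw [h7, st_zero, sub_zero] at h6
      have h8 : st W (y * w) - st W (r * y * w) = st W (star v * v * (y * w)) := by
        rw [hr, sub_mul, sub_mul, one_mul, st_sub, mul_assoc (star v * v)]
        ring
      rw [h8]
      exact h6.trans (mul_le_mul_of_nonneg_left (nmul_le hwn y) (by linarith))
    have h9 : ‖st V (w * y) - st V (w * y * s)‖ ≤ 2 * ε * ‖y‖ := by
      have h6 := hI.comm_f hV.norm hv hvn (mul_mem hwM hy)
      have h7 : v * star v * (w * y) = 0 := by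
        rw [mul_assoc, ← mul_assoc (star v), hvw, zero_mul, mul_zero]
      rw [h7, st_zero, zero_sub, norm_neg] at h6
      have h8 : st V (w * y) - st V (w * y * s) = st V (w * y * (v * star v)) := by
        rw [hs, mul_sub, mul_one, st_sub]
        ring
      rw [h8]
      exact h6.trans (mul_le_mul_of_nonneg_left (nmul_le' hwn y) (by linarith))
    have h10 := hI y hy
    have e6 : st W (y * (v + w)) - st V ((v + w) * y) =
        (st W (y * v) - st V (v * y)) + ((st W (y * w) - st W (r * y * w)) +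
          ((st W (r * y * w) - st V (w * y * s)) - (st V (w * y) - st V (w * y * s)))) := by
      rw [mul_add, add_mul, st_add, st_add]
      ring
    rw [e6]
    refine (norm_add_le _ _).trans ((add_le_add h10 ((norm_add_le _ _).trans
      (add_le_add h5 ((norm_sub_le _ _).trans (add_le_add hmain h9))))).trans (le_of_eq ?_))
    ring

theorem iterate (hM : IsTypeIIIOneFactor M) (hV : Sep M V) (hW : Sep M W) {c : ℝ} (hc1 : c ≤ 1)
    (hP : Pt M c) (k : ℕ) :
    ∀ ε : ℝ, 0 < ε → ∃ v ∈ M, v * star v * v = v ∧ 1 - star v * v ≠ 0 ∧ 1 - v * star v ≠ 0 ∧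
      (st W (1 - star v * v)).re ≤ (1 - c) ^ k ∧ (st V (1 - v * star v)).re ≤ (1 - c) ^ k ∧
      IS M V W v ε := by
  induction k with
  | zero =>
    intro ε hε
    refine ⟨0, zero_mem M, by simp, ?_, ?_, ?_, ?_, ?_⟩
    · rw [mul_zero, sub_zero]; exact one_ne hV
    · rw [zero_mul, sub_zero]; exact one_ne hV
    · rw [mul_zero, sub_zero, st_one hW.norm]; simp
    · rw [zero_mul, sub_zero, st_one hV.norm]; simp
    · intro y _
      rw [mul_zero, zero_mul, st_zero, st_zero, sub_zero, norm_zero]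
      positivity
  | succ k ih =>
    intro ε hε
    obtain ⟨v, hv, hp, hr, hs, h1, h2, hI⟩ := ih (ε / 12) (by positivity)
    obtain ⟨w, hw, hwp, hwr, hws, h3, h4, h5⟩ :=
      step hM hV hW hP hv hp hr hs (show 0 < ε / 2 by positivity) hI
    have hc : 0 ≤ 1 - c := by linarith
    refine ⟨w, hw, hwp, hwr, hws, ?_, ?_, ?_⟩
    · rw [pow_succ']
      exact h3.trans (mul_le_mul_of_nonneg_left h1 hc)
    · rw [pow_succ']
      exact h4.trans (mul_le_mul_of_nonneg_left h2 hc)
    · have : 6 * (ε / 12) + ε / 2 = ε := by ring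
      rwa [this] at h5

/-- approximate unitary equivalence of faithful normal states, from pieces -/
theorem trans_st (hM : IsTypeIIIOneFactor M) (hV : Sep M V) (hW : Sep M W) {c : ℝ} (hc0 : 0 < c)
    (hc1 : c ≤ 1) (hP : Pt M c) {δ : ℝ} (hδ : 0 < δ) :
    ∃ u ∈ M, star u * u = 1 ∧ u * star u = 1 ∧ IS M V W u δ := by
  obtain ⟨k, hk⟩ : ∃ k : ℕ, (1 - c) ^ k < (δ / 4) ^ 2 :=
    exists_pow_lt_of_lt_one (by positivity) (by linarith)
  obtain ⟨v, hv, hp, hr0, hs0, h1, h2, hI⟩ := iterate hM hV hW hc1 hP k (δ / 2) (by positivity)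
  obtain ⟨r, hr⟩ : ∃ r : H →L[ℂ] H, r = 1 - star v * v := ⟨_, rfl⟩
  obtain ⟨s, hs⟩ : ∃ s : H →L[ℂ] H, s = 1 - v * star v := ⟨_, rfl⟩
  have hve : v * (star v * v) = v := by rw [← mul_assoc, hp]
  have hvs : star v * (v * star v) = star v := by
    have := congrArg star hve
    rwa [star_mul, star_mul, star_star, mul_assoc] at this
  have hrM : r ∈ M := by rw [hr]; exact sub_mem (one_mem M) (mul_mem (star_mem hv) hv)
  have hsM : s ∈ M := by rw [hs]; exact sub_mem (one_mem M) (mul_mem hv (star_mem hv))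
  have hrs : star r = r := by rw [hr, star_sub, star_one, star_mul, star_star]
  have hss : star s = s := by rw [hs, star_sub, star_one, star_mul, star_star]
  have hvr : v * r = 0 := by rw [hr, mul_sub, mul_one, hve, sub_self]
  have hsv : star v * s = 0 := by rw [hs, mul_sub, mul_one, hvs, sub_self]
  have hrr : r * r = r := by
    have e : r * r = (1 - star v * v) * r := by rw [← hr]
    rw [e, sub_mul, one_mul, mul_assoc, hvr, mul_zero, sub_zero]
  have hsi : s * s = s := by
    have e : s * s = (1 - v * star v) * s := by rw [← hs]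
    rw [e, sub_mul, one_mul, mul_assoc, hsv, mul_zero, sub_zero]
  rw [← hr] at hr0 h1
  rw [← hs] at hs0 h2
  obtain ⟨a, ha, ha1, ha2⟩ := all_equiv hM (isNormal_st hV.norm) hV.faithful hsM hss hsi hs0
  obtain ⟨b, hb, hb1, hb2⟩ := all_equiv hM (isNormal_st hV.norm) hV.faithful hrM hrs hrr hr0
  have hsa : s * a = a := by rw [← ha2, mul_assoc, ha1, mul_one]
  have hrb : r * b = b := by rw [← hb2, mul_assoc, hb1, mul_one]
  have hva : star v * a = 0 := by rw [← hsa, ← mul_assoc, hsv, zero_mul]
  have hvb : v * b = 0 := by rw [← hrb, ← mul_assoc, hvr, zero_mul]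
  obtain ⟨z, hz⟩ : ∃ z : H →L[ℂ] H, z = a * star b := ⟨_, rfl⟩
  have hzM : z ∈ M := by rw [hz]; exact mul_mem ha (star_mem hb)
  have hzs : star z = b * star a := by rw [hz, star_mul, star_star]
  have hvz : star v * z = 0 := by rw [hz, ← mul_assoc, hva, zero_mul]
  have hvz' : v * star z = 0 := by rw [hzs, ← mul_assoc, hvb, zero_mul]
  have hzz : star z * z = r := by
    rw [hzs, hz]
    calc b * star a * (a * star b) = b * (star a * a) * star b := by simp only [mul_assoc]
      _ = r := by rw [ha1, mul_one, hb2]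
  have hzz' : z * star z = s := by
    rw [hzs, hz]
    calc a * star b * (b * star a) = a * (star b * b) * star a := by simp only [mul_assoc]
      _ = s := by rw [hb1, mul_one, ha2]
  obtain ⟨q1, q2⟩ := add_pi hvz hvz'
  refine ⟨v + z, add_mem hv hzM, ?_, ?_, ?_⟩
  · rw [q1, hzz, hr]; abel
  · rw [q2, hzz', hs]; abel
  · intro y hy
    have hWz : ‖amp z W‖ ≤ δ / 4 := by
      have h3 := st_self_re W z
      rw [hzz] at h3
      rw [h3] at h1
      exact ((pow_lt_pow_iff_left₀ (norm_nonneg _) (by positivity) two_ne_zero).1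
        (h1.trans_lt hk)).le
    have hVz : ‖amp (star z) V‖ ≤ δ / 4 := by
      have h3 := st_self_re V (star z)
      rw [star_star, hzz'] at h3
      rw [h3] at h2
      exact ((pow_lt_pow_iff_left₀ (norm_nonneg _) (by positivity) two_ne_zero).1
        (h2.trans_lt hk)).le
    have h3 : ‖st W (y * z)‖ ≤ δ / 4 * ‖y‖ := by
      refine (norm_st_mul_le W y z).trans ?_
      have h4 : ‖amp (star y) W‖ ≤ ‖y‖ := by
        refine (norm_amp_apply_le hW.norm _).trans ?_
        rw [norm_star]
      rw [mul_comm (δ / 4)]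
      exact mul_le_mul h4 hWz (norm_nonneg _) (norm_nonneg _)
    have h5 : ‖st V (z * y)‖ ≤ δ / 4 * ‖y‖ := by
      refine (norm_st_mul_le V z y).trans ?_
      exact mul_le_mul hVz (norm_amp_apply_le hV.norm _) (norm_nonneg _) (by positivity)
    have h6 := hI y hy
    have e : st W (y * (v + z)) - st V ((v + z) * y) =
        (st W (y * v) - st V (v * y)) + (st W (y * z) - st V (z * y)) := by
      rw [mul_add, add_mul, st_add, st_add]; ring
    rw [e]
    refine (norm_add_le _ _).trans ((add_le_add h6 ((norm_sub_le _ _).trans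
      (add_le_add h3 h5))).trans (le_of_eq ?_))
    ring

theorem transitivity (hM : IsTypeIIIOneFactor M) {c : ℝ} (hc : 0 < c)
    (hpiece : ∀ φ ψ : (H →L[ℂ] H) → ℂ, IsNormalState M φ → IsFaithful M φ →
      IsNormalState M ψ → IsFaithful M ψ → ∀ δ : ℝ, 0 < δ →
      ∃ v ∈ M, v * star v * v = v ∧ c ≤ (φ (v * star v)).re ∧ c ≤ (ψ (star v * v)).re ∧
        Itw M φ ψ v δ)
    {φ ψ : (H →L[ℂ] H) → ℂ} (hφ : IsNormalState M φ) (hφf : IsFaithful M φ)
    (hψ : IsNormalState M ψ) (hψf : IsFaithful M ψ) {δ : ℝ} (hδ : 0 < δ) :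
    ∃ u ∈ M, star u * u = 1 ∧ u * star u = 1 ∧
      ∀ y ∈ M, ‖ψ y - φ (u * y * star u)‖ ≤ δ * ‖y‖ := by
  obtain ⟨V, hV1, hVe⟩ := exists_st hφ
  obtain ⟨W, hW1, hWe⟩ := exists_st hψ
  have hV := sep_of hφf hV1 hVe
  have hW := sep_of hψf hW1 hWe
  have hc1 : c ≤ 1 := by
    obtain ⟨v, hv, hp, h1, -, -⟩ := hpiece φ ψ hφ hφf hψ hψf 1 one_pos
    rw [hVe _ (mul_mem hv (star_mem hv))] at h1
    refine h1.trans ((Complex.re_le_norm _).trans ((norm_st_le hV1 _).trans ?_))
    have h2 := pi_norm_le hp
    exact (nmul_le (by rwa [norm_star]) v).trans h2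
  have hP : Pt M (c / 2) := by
    intro V W hV hW δ hδ
    obtain ⟨v, hv, hp, h1, h2, h3⟩ := hpiece (st V) (st W) (isNormal_st hV.norm) hV.faithful
      (isNormal_st hW.norm) hW.faithful (δ / 2) (by positivity)
    have h4 := st_self_re V (star v)
    rw [star_star] at h4
    rw [h4] at h1
    rw [st_self_re] at h2
    have hv0 : v ≠ 0 := by
      intro h
      rw [h, amp_zero] at h2
      have : ‖(0 : EllTwo H →L[ℂ] EllTwo H) W‖ = 0 := by simp
      rw [this] at h2
      norm_num at h2
      linarith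
    have hη : 0 < min (δ / 4) (c / 2) := lt_min (by positivity) (by positivity)
    have hη2 : (min (δ / 4) (c / 2)) ^ 2 ≤ c / 2 := by
      have h5 : min (δ / 4) (c / 2) ≤ c / 2 := min_le_right _ _
      nlinarith
    obtain ⟨w, hw, hwp, hwr, hws, h5, h6, h7⟩ := trim hM hV hW hv hp hv0 hη h3
    refine ⟨w, hw, hwp, hwr, hws, by linarith, by linarith, fun y hy => (h7 y hy).trans ?_⟩
    have h8 : min (δ / 4) (c / 2) ≤ δ / 4 := min_le_left _ _
    exact mul_le_mul_of_nonneg_right (by linarith) (norm_nonneg _)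
  obtain ⟨u, hu, hu1, hu2, hI⟩ := trans_st hM hV hW (half_pos hc) (by linarith) hP hδ
  refine ⟨u, hu, hu1, hu2, fun y hy => ?_⟩
  have h1 := hI (y * star u) (mul_mem hy (star_mem hu))
  rw [mul_assoc y, hu1, mul_one, ← mul_assoc] at h1
  rw [hWe y hy, hVe _ (mul_mem (mul_mem hu hy) (star_mem hu))]
  have hun : ‖star u‖ ≤ 1 := by rw [norm_star]; exact isometry_norm_le hu1
  exact h1.trans (mul_le_mul_of_nonneg_left (nmul_le hun y) hδ.le)

end Vale.Agent.P132.N8
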